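import Mathlib

/-!
Chains of random label functions with a conditional spread property, built from the orbits of a
finite group, and their tensor powers.
-/

open Finset

namespace Vale.Agent.P064.Second

variable {X : Type*}

/-- Forget the labels above `a`. -/
def key (a : ℕ) (f : X → ℕ) : X → ℕ := fun x => if f x ≤ a then f x else 0

variable [Fintype X]

/-- The points with nonzero label. -/
def supp (f : X → ℕ) : Finset X := univ.filter fun x => f x ≠ 0

lemma mem_supp {f : X → ℕ} {x : X} : x ∈ supp f ↔ f x ≠ 0 := by simp [supp]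

variable [DecidableEq X]

/-- A distribution on label functions which is spread given any initial segment of labels. -/
structure Chain (X : Type*) [Fintype X] [DecidableEq X] (q : ℝ) (K : ℕ) (b : ℕ → ℕ) where
  Ω : Finset (X → ℕ)
  ν : (X → ℕ) → ℝ
  nonneg : ∀ f ∈ Ω, 0 ≤ ν f
  total : ∑ f ∈ Ω, ν f = 1
  le_top : ∀ f ∈ Ω, ∀ x, f x ≤ K
  classBound : ∀ f ∈ Ω, ∀ a, 1 ≤ a → (univ.filter fun x => f x = a).card ≤ b a
  spread : ∀ (a : ℕ) (κ : X → ℕ) (A : Finset X) (ℓ : X → ℕ), (∀ x ∈ A, a < ℓ x) →
    ∑ f ∈ Ω.filter (fun f => key a f = κ ∧ ∀ x ∈ A, f x = ℓ x), ν f ≤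
      q ^ A.card * ∑ f ∈ Ω.filter (fun f => key a f = κ), ν f

section Orbits

variable {Γ : Type*} [Group Γ] [Fintype Γ] (π : Γ →* Equiv.Perm X)

/-- The orbit of a set. -/
def orb (T : Finset X) : Finset (Finset X) := univ.image fun g => T.map (π g).toEmbedding

omit [Fintype X] in
lemma mem_orb {T S : Finset X} : S ∈ orb π T ↔ ∃ g, T.map (π g).toEmbedding = S := by
  simp [orb]

lemma map_mem_orb (T : Finset X) (g : Γ) : T.map (π g).toEmbedding ∈ orb π T :=
  (mem_orb π).2 ⟨g, rfl⟩

omit [Fintype X] [DecidableEq X] [Fintype Γ] in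
lemma map_one' (T : Finset X) : T.map (π 1).toEmbedding = T := by
  ext
  simp [Equiv.Perm.one_def]

omit [Fintype X] in
lemma self_mem_orb (T : Finset X) : T ∈ orb π T :=
  (mem_orb π).2 ⟨1, map_one' π T⟩

omit [Fintype X] [DecidableEq X] [Fintype Γ] in
lemma map_mul (T : Finset X) (g h : Γ) :
    (T.map (π h).toEmbedding).map (π g).toEmbedding = T.map (π (g * h)).toEmbedding := by
  rw [Finset.map_map]
  congr 1
  ext x
  simp

lemma orb_eq {T S : Finset X} (h : S ∈ orb π T) : orb π S = orb π T := by
  obtain ⟨h₀, rfl⟩ := (mem_orb π).1 h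
  ext U
  constructor
  · intro hU
    obtain ⟨g, rfl⟩ := (mem_orb π).1 hU
    exact (mem_orb π).2 ⟨g * h₀, (map_mul π T g h₀).symm⟩
  · intro hU
    obtain ⟨g, rfl⟩ := (mem_orb π).1 hU
    exact (mem_orb π).2 ⟨g * h₀⁻¹, by rw [map_mul, inv_mul_cancel_right]⟩

lemma card_of_mem_orb {T S : Finset X} (h : S ∈ orb π T) : S.card = T.card := by
  obtain ⟨g, rfl⟩ := (mem_orb π).1 h
  exact card_map _

lemma map_mem_orb_iff {T S : Finset X} (g : Γ) :
    S.map (π g).toEmbedding ∈ orb π T ↔ S ∈ orb π T := by
  constructor <;> intro h
  · rw [← orb_eq π h, orb_eq π (map_mem_orb π S g)]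
    exact self_mem_orb π S
  · rw [← orb_eq π h]
    exact map_mem_orb π S g

/-- Number of translates of `H` containing `T`. -/
def above (H T : Finset X) : ℕ := ((orb π H).filter fun S => T ⊆ S).card

/-- Number of translates of `T` inside `H`. -/
def below (H T : Finset X) : ℕ := ((orb π T).filter fun S => S ⊆ H).card

lemma above_map (H T : Finset X) (g : Γ) : above π H (T.map (π g).toEmbedding) = above π H T := by
  symm
  refine card_equiv (π g).finsetCongr fun S => ?_
  simp only [mem_filter, Equiv.finsetCongr_apply, map_mem_orb_iff, Finset.map_subset_map]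

lemma below_map (H T : Finset X) (g : Γ) : below π (H.map (π g).toEmbedding) T = below π H T := by
  symm
  refine card_equiv (π g).finsetCongr fun S => ?_
  simp only [mem_filter, Equiv.finsetCongr_apply, map_mem_orb_iff, Finset.map_subset_map]

lemma double_count (H T : Finset X) :
    (orb π T).card * above π H T = (orb π H).card * below π H T := by
  refine card_mul_eq_card_mul (fun S U => S ⊆ U) ?_ ?_
  · intro S hS
    obtain ⟨g, rfl⟩ := (mem_orb π).1 hS
    exact above_map π H T g
  · intro U hU
    obtain ⟨g, rfl⟩ := (mem_orb π).1 hU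
    exact below_map π H T g

lemma below_congr (H : Finset X) {T S : Finset X} (h : S ∈ orb π T) :
    below π H S = below π H T := by rw [below, below, orb_eq π h]

/-- A heavy small subset, relative to which translates of `H` are spread. -/
lemma exists_core {c : ℝ} (hc : 0 < c) (H : Finset X)
    (hH : ∀ J ⊆ H, 1 ≤ ((orb π J).card : ℝ) * c ^ J.card) :
    ∃ J ⊆ H, 2 * J.card ≤ H.card ∧
      ∀ w ∈ orb π J, 0 < above π H w ∧ ∀ B, Disjoint w B →
        (above π H (w ∪ B) : ℝ) ≤ (6 * c) ^ B.card * above π H w := by
  set q := 6 * c with hqdef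
  have hq : 0 < q := by positivity
  have horb : ∀ T : Finset X, (0 : ℝ) < (orb π T).card := fun T => by
    exact_mod_cast card_pos.2 ⟨T, self_mem_orb π T⟩
  set Φ : Finset X → ℝ := fun J => below π H J / ((orb π J).card * q ^ J.card) with hΦ
  obtain ⟨J, hJ, hmax⟩ := exists_max_image H.powerset Φ ⟨∅, empty_mem_powerset _⟩
  rw [mem_powerset] at hJ
  have hb1 : 1 ≤ below π H J := card_pos.2 ⟨J, mem_filter.2 ⟨self_mem_orb π J, hJ⟩⟩
  refine ⟨J, hJ, ?_, ?_⟩
  · have h0 : 1 ≤ Φ ∅ := by
      have : orb π (∅ : Finset X) = {∅} := by simp [orb, image_const univ_nonempty]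
      simp [hΦ, below, this, filter_singleton]
    have h1 : 1 ≤ Φ J := h0.trans (hmax ∅ (empty_mem_powerset _))
    rw [hΦ] at h1
    simp only at h1
    rw [one_le_div (mul_pos (horb J) (pow_pos hq _))] at h1
    have h2 : (6 : ℝ) ^ J.card ≤ below π H J := by
      refine le_trans ?_ h1
      rw [hqdef, mul_pow, mul_left_comm]
      exact le_mul_of_one_le_right (by positivity) (hH J hJ)
    have h3 : below π H J ≤ H.card.choose J.card := by
      rw [← card_powersetCard]
      refine card_le_card fun S hS => mem_powersetCard.2 ?_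
      exact ⟨(mem_filter.1 hS).2, card_of_mem_orb π (mem_filter.1 hS).1⟩
    set j := J.card with hj
    set e := H.card
    rcases Nat.eq_zero_or_pos j with h | h
    · omega
    have h4 : (6 : ℝ) ^ j * (j : ℝ) ^ j ≤ (3 * e) ^ j := by
      have he : (H.card.choose j : ℝ) ≤ (e : ℝ) ^ j / j.factorial := Nat.choose_le_pow_div j e
      have hexp : (j : ℝ) ^ j / j.factorial ≤ 3 ^ j := by
        refine (Real.pow_div_factorial_le_exp _ (Nat.cast_nonneg j) j).trans ?_
        rw [← mul_one (j : ℝ), Real.exp_nat_mul]
        exact pow_le_pow_left₀ (Real.exp_nonneg _) Real.exp_one_lt_three.le _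
      calc (6 : ℝ) ^ j * (j : ℝ) ^ j ≤ (below π H J : ℝ) * (j : ℝ) ^ j :=
            mul_le_mul_of_nonneg_right h2 (by positivity)
        _ ≤ ((e : ℝ) ^ j / j.factorial) * (j : ℝ) ^ j := by
            gcongr
            exact le_trans (by exact_mod_cast h3) he
        _ = (e : ℝ) ^ j * ((j : ℝ) ^ j / j.factorial) := by ring
        _ ≤ (e : ℝ) ^ j * 3 ^ j := mul_le_mul_of_nonneg_left hexp (by positivity)
        _ = _ := by rw [mul_pow, mul_comm]
    rw [← mul_pow] at h4
    have h5 : (6 * j : ℝ) ≤ 3 * e :=
      le_of_pow_le_pow_left₀ (by omega) (by positivity) h4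
    have h6 : (6 * j : ℕ) ≤ 3 * e := by exact_mod_cast h5
    omega
  · intro w hw
    have hdc := fun T => congrArg (Nat.cast (R := ℝ)) (double_count π H T)
    have hw' := hdc w
    rw [orb_eq π hw, below_congr π H hw] at hw'
    push_cast at hw'
    have hpos : 0 < above π H w := by
      have : (0 : ℝ) < (orb π J).card * above π H w := by
        rw [hw']
        exact mul_pos (horb H) (by exact_mod_cast hb1)
      exact_mod_cast pos_of_mul_pos_right this (horb J).le
    refine ⟨hpos, fun B hB => ?_⟩
    rcases Nat.eq_zero_or_pos (above π H (w ∪ B)) with h | h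
    · rw [h, Nat.cast_zero]; positivity
    obtain ⟨S, hS⟩ := card_pos.1 h
    obtain ⟨g, rfl⟩ := (mem_orb π).1 (mem_filter.1 hS).1
    set T := w ∪ B
    set T0 := T.map (π g⁻¹).toEmbedding with hT0
    have hT0H : T0 ⊆ H := by
      have := Finset.map_subset_map (f := (π g⁻¹).toEmbedding).2 (mem_filter.1 hS).2
      rw [map_mul, inv_mul_cancel] at this
      rwa [map_one'] at this
    have hT0m : T0 ∈ orb π T := map_mem_orb π T _
    have hm := hmax T0 (mem_powerset.2 hT0H)
    simp only [hΦ] at hm
    rw [orb_eq π hT0m, below_congr π H hT0m, card_of_mem_orb π hT0m,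
      card_union_of_disjoint hB, card_of_mem_orb π hw,
      div_le_div_iff₀ (mul_pos (horb T) (pow_pos hq _)) (mul_pos (horb J) (pow_pos hq _)),
      pow_add] at hm
    have hT := hdc T
    push_cast at hT
    refine le_of_mul_le_mul_left ?_ (mul_pos (mul_pos (horb T) (horb J)) (pow_pos hq J.card))
    calc ((orb π T).card : ℝ) * (orb π J).card * q ^ J.card * above π H T
        = ((orb π T).card * above π H T : ℝ) * ((orb π J).card * q ^ J.card) := by ring
      _ = (orb π H).card * ((below π H T : ℝ) * ((orb π J).card * q ^ J.card)) := by rw [hT]; ring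
      _ ≤ (orb π H).card *
          ((below π H J : ℝ) * ((orb π T).card * (q ^ J.card * q ^ B.card))) :=
          mul_le_mul_of_nonneg_left hm (horb H).le
      _ = ((orb π H).card * below π H J : ℝ) * ((orb π T).card * q ^ J.card * q ^ B.card) := by
          ring
      _ = _ := by rw [← hw']; ring

omit [Fintype X] [DecidableEq X] in
lemma key_top {K : ℕ} {f : X → ℕ} (h : ∀ x, f x ≤ K) {a : ℕ} (ha : K ≤ a) : key a f = f :=
  funext fun x => if_pos ((h x).trans ha)

/-- The chain attached to an orbit. -/
theorem exists_chain {c : ℝ} (hc : 0 < c) : ∀ (K : ℕ) (H : Finset X),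
    (∀ J ⊆ H, 1 ≤ ((orb π J).card : ℝ) * c ^ J.card) → H.card < 2 ^ K →
      ∃ C : Chain X (6 * c) K (fun a => 2 ^ a), ∀ f ∈ C.Ω, supp f ∈ orb π H := by
  intro K
  induction K with
  | zero =>
    intro H _ hK
    have hH : H = ∅ := card_eq_zero.1 (by simpa using hK)
    refine ⟨{ Ω := {0}
              ν := fun _ => 1
              nonneg := fun _ _ => zero_le_one
              total := by simp
              le_top := by simp
              classBound := ?_
              spread := ?_ }, ?_⟩
    · intro f hf a ha
      rw [mem_singleton] at hf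
      subst hf
      rw [filter_eq_empty_iff.2 fun x _ => by simp only [Pi.zero_apply]; omega]
      simp
    · intro a κ A ℓ hA
      rcases A.eq_empty_or_nonempty with rfl | ⟨x, hx⟩
      · simp
      · rw [sum_eq_zero]
        · positivity
        · intro f hf
          rw [mem_filter, mem_singleton] at hf
          have := hf.2.2 x hx
          have := hA x hx
          rw [hf.1, Pi.zero_apply] at *
          omega
    · intro f hf
      have : f = 0 := mem_singleton.1 hf
      subst this
      rw [show supp (0 : X → ℕ) = H by simp [supp, hH]]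
      exact self_mem_orb π H
  | succ K ih =>
    intro H hH hK
    obtain ⟨J, hJ, hJc, hcore⟩ := exists_core π hc H hH
    set q := 6 * c with hqdef
    obtain ⟨C, hC⟩ := ih J (fun I hI => hH I (hI.trans hJ)) (by rw [pow_succ] at hK; omega)
    have hq : 0 < q := by positivity
    set ext' : (_ : X → ℕ) × Finset X → (X → ℕ) := fun p x =>
      if x ∈ p.2 ∧ p.1 x = 0 then K + 1 else p.1 x with hext
    set D : Finset ((_ : X → ℕ) × Finset X) :=
      C.Ω.sigma fun f => (orb π H).filter fun S => supp f ⊆ S with hD
    set ν : (X → ℕ) → ℝ := fun f => C.ν (key K f) / above π H (supp (key K f)) with hν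
    have hkey : ∀ p ∈ D, ∀ a ≤ K, key a (ext' p) = key a p.1 := by
      intro p _ a ha
      funext x
      simp only [key, hext]
      by_cases h : x ∈ p.2 ∧ p.1 x = 0
      · rw [if_pos h, if_neg (by omega), h.2, ite_self]
      · rw [if_neg h]
    have hkeyK : ∀ p ∈ D, key K (ext' p) = p.1 := fun p hp =>
      (hkey p hp K le_rfl).trans (key_top (C.le_top _ (mem_sigma.1 hp).1) le_rfl)
    have hsupp : ∀ p ∈ D, supp (ext' p) = p.2 := by
      intro p hp
      ext x
      rw [mem_supp, hext]
      simp only
      constructor
      · intro h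
        by_cases hx : x ∈ p.2 ∧ p.1 x = 0
        · exact hx.1
        · rw [if_neg hx] at h
          exact (mem_filter.1 (mem_sigma.1 hp).2).2 (mem_supp.2 h)
      · intro hx
        split_ifs with h
        · omega
        · exact fun h0 => h ⟨hx, h0⟩
    have hinj : Set.InjOn ext' D := by
      intro p hp p' hp' h
      exact Sigma.ext (by rw [← hkeyK p hp, ← hkeyK p' hp', h])
        (heq_of_eq (by rw [← hsupp p hp, ← hsupp p' hp', h]))
    have hval : ∀ p ∈ D, ν (ext' p) = C.ν p.1 / above π H (supp p.1) := fun p hp => by
      simp only [hν, hkeyK p hp]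
    have hsum : ∀ (P : (X → ℕ) → Prop) [DecidablePred P],
        ∑ f ∈ (D.image ext').filter P, ν f =
          ∑ f ∈ C.Ω, C.ν f / above π H (supp f) *
            (((orb π H).filter fun S => supp f ⊆ S).filter fun S => P (ext' ⟨f, S⟩)).card := by
      intro P _
      rw [sum_filter, sum_image hinj, hD, sum_sigma]
      refine sum_congr rfl fun f hf => ?_
      rw [← sum_filter, sum_congr rfl (g := fun _ => C.ν f / above π H (supp f)), sum_const,
        nsmul_eq_mul, mul_comm]
      intro S hS
      exact hval ⟨f, S⟩ (by rw [hD]; exact mem_sigma.2 ⟨hf, (mem_filter.1 hS).1⟩)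
    have hw : ∀ f ∈ C.Ω, (0 : ℝ) < above π H (supp f) := fun f hf => by
      exact_mod_cast (hcore _ (hC f hf)).1
    have hwhole : ∀ f ∈ C.Ω, C.ν f / above π H (supp f) *
        (((orb π H).filter fun S => supp f ⊆ S).card : ℝ) = C.ν f := fun f hf =>
      div_mul_cancel₀ _ (hw f hf).ne'
    have hle : ∀ f ∈ D.image ext', ∀ x, f x ≤ K + 1 := by
      simp only [mem_image]
      rintro _ ⟨p, hp, rfl⟩ x
      simp only [hext]
      split_ifs
      · exact le_rfl
      · exact (C.le_top _ (mem_sigma.1 hp).1 x).trans (Nat.le_succ K)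
    have hnn : ∀ f ∈ D.image ext', 0 ≤ ν f := by
      simp only [mem_image]
      rintro _ ⟨p, hp, rfl⟩
      rw [hval p hp]
      exact div_nonneg (C.nonneg _ (mem_sigma.1 hp).1) (Nat.cast_nonneg _)
    refine ⟨{ Ω := D.image ext'
              ν := ν
              nonneg := hnn
              total := ?_
              le_top := hle
              classBound := ?_
              spread := ?_ }, ?_⟩
    · have := hsum (fun _ => True)
      simp only [filter_true] at this
      rw [this, sum_congr rfl hwhole, C.total]
    · simp only [mem_image]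
      rintro _ ⟨p, hp, rfl⟩ a ha
      rcases eq_or_ne a (K + 1) with rfl | hne
      · calc (univ.filter fun x => ext' p x = K + 1).card ≤ p.2.card := by
              refine card_le_card fun x hx => ?_
              rw [← hsupp p hp, mem_supp, (mem_filter.1 hx).2]
              omega
          _ = H.card := card_of_mem_orb π (mem_filter.1 (mem_sigma.1 hp).2).1
          _ ≤ _ := hK.le
      · refine le_trans (card_le_card fun x hx => ?_) (C.classBound _ (mem_sigma.1 hp).1 a ha)
        rw [mem_filter] at hx ⊢
        refine ⟨hx.1, ?_⟩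
        have h := hx.2
        simp only [hext] at h
        split_ifs at h with hh
        · exact absurd h.symm hne
        · exact h
    · intro a κ A ℓ hA
      rcases lt_or_ge K a with ha | ha
      · rcases A.eq_empty_or_nonempty with rfl | ⟨x, hx⟩
        · simp
        · rw [sum_eq_zero]
          · exact mul_nonneg (by positivity) (sum_nonneg fun f hf => hnn f (mem_filter.1 hf).1)
          · intro f hf
            rw [mem_filter] at hf
            have h1 := hle f hf.1 x
            have h2 := hA x hx
            rw [hf.2.2 x hx] at h1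
            omega
      set A1 := A.filter fun x => ℓ x ≠ K + 1
      set A2 := A.filter fun x => ℓ x = K + 1
      have hA12 : A1.card + A2.card = A.card := by
        rw [add_comm]; exact card_filter_add_card_filter_not _
      rw [hsum, hsum]
      calc _ ≤ ∑ f ∈ C.Ω.filter (fun f => key a f = κ ∧ ∀ x ∈ A1, f x = ℓ x),
            q ^ A2.card * C.ν f := by
            rw [sum_filter]
            refine sum_le_sum fun f hf => ?_
            by_cases hne : (((orb π H).filter fun S => supp f ⊆ S).filter fun S =>
                key a (ext' ⟨f, S⟩) = κ ∧ ∀ x ∈ A, ext' ⟨f, S⟩ x = ℓ x).Nonempty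
            swap
            · rw [not_nonempty_iff_eq_empty.1 hne, card_empty, Nat.cast_zero, mul_zero]
              split_ifs
              · exact mul_nonneg (by positivity) (C.nonneg f hf)
              · exact le_rfl
            obtain ⟨S, hS⟩ := hne
            rw [mem_filter] at hS
            have hp : (⟨f, S⟩ : (_ : X → ℕ) × Finset X) ∈ D := by
              rw [hD]; exact mem_sigma.2 ⟨hf, hS.1⟩
            rw [if_pos ⟨(hkey _ hp a ha).symm.trans hS.2.1, fun x hx => by
              have h := hS.2.2 x (mem_filter.1 hx).1
              simp only [hext] at h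
              split_ifs at h with hh
              · exact absurd h.symm (mem_filter.1 hx).2
              · exact h⟩]
            have hdis : Disjoint (supp f) A2 := by
              rw [disjoint_left]
              intro x hx hx2
              have h := hS.2.2 x (mem_filter.1 hx2).1
              simp only [hext, (mem_filter.1 hx2).2] at h
              rw [if_neg fun hh => mem_supp.1 hx hh.2] at h
              have := C.le_top f hf x
              omega
            calc C.ν f / above π H (supp f) * _
                ≤ C.ν f / above π H (supp f) * (above π H (supp f ∪ A2) : ℝ) := by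
                  refine mul_le_mul_of_nonneg_left (Nat.cast_le.2 (card_le_card fun T hT => ?_))
                    (div_nonneg (C.nonneg f hf) (Nat.cast_nonneg _))
                  simp only [mem_filter] at hT ⊢
                  refine ⟨hT.1.1, union_subset hT.1.2 fun x hx => ?_⟩
                  have h := hT.2.2 x (mem_filter.1 hx).1
                  rw [(mem_filter.1 hx).2] at h
                  simp only [hext] at h
                  split_ifs at h with hh
                  · exact hh.1
                  · have := C.le_top f hf x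
                    omega
              _ ≤ C.ν f / above π H (supp f) * (q ^ A2.card * above π H (supp f)) :=
                  mul_le_mul_of_nonneg_left ((hcore _ (hC f hf)).2 A2 hdis)
                    (div_nonneg (C.nonneg f hf) (Nat.cast_nonneg _))
              _ = _ := by
                  have := (hw f hf).ne'
                  field_simp
        _ ≤ q ^ A2.card * (q ^ A1.card * ∑ f ∈ C.Ω.filter (fun f => key a f = κ), C.ν f) := by
            rw [← mul_sum]
            exact mul_le_mul_of_nonneg_left
              (C.spread a κ A1 ℓ fun x hx => hA x (mem_filter.1 hx).1) (by positivity)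
        _ = _ := by
            rw [← mul_assoc, ← pow_add, add_comm A2.card, hA12]
            congr 1
            rw [sum_filter]
            refine sum_congr rfl fun f hf => ?_
            split_ifs with h
            · have hh : (((orb π H).filter fun S => supp f ⊆ S).filter
                  fun S => key a (ext' ⟨f, S⟩) = κ) = (orb π H).filter fun S => supp f ⊆ S :=
                filter_eq_self.2 fun S hS => by
                  rw [hkey ⟨f, S⟩ (by rw [hD]; exact mem_sigma.2 ⟨hf, hS⟩) a ha, h]
              rw [hh, hwhole f hf]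
            · rw [filter_eq_empty_iff.2, card_empty, Nat.cast_zero, mul_zero]
              intro S hS h'
              rw [hkey ⟨f, S⟩ (by rw [hD]; exact mem_sigma.2 ⟨hf, hS⟩) a ha] at h'
              exact h h'
    · simp only [mem_image]
      rintro _ ⟨p, hp, rfl⟩
      rw [hsupp p hp]
      exact (mem_filter.1 (mem_sigma.1 hp).2).1

end Orbits

section Tensor

variable {q : ℝ} {K : ℕ} {b : ℕ → ℕ}

/-- The product of `m` independent copies of a chain. -/
theorem exists_power (C : Chain X q K b) (m : ℕ) :
    ∃ P : Chain (X × Fin m) q K (fun a => m * b a),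
      ∀ f ∈ P.Ω, ∀ i, (fun x => f (x, i)) ∈ C.Ω := by
  classical
  set e : (Fin m → X → ℕ) ↪ (X × Fin m → ℕ) :=
    ⟨fun F z => F z.2 z.1, fun F G h => funext fun i => funext fun x => congrFun h (x, i)⟩
    with he
  set Ω := (Fintype.piFinset fun _ : Fin m => C.Ω).map e with hΩ
  set ν : (X × Fin m → ℕ) → ℝ := fun f => ∏ i, C.ν fun x => f (x, i) with hν
  have hmem : ∀ f ∈ Ω, ∀ i, (fun x => f (x, i)) ∈ C.Ω := by
    intro f hf i
    obtain ⟨F, hF, rfl⟩ := mem_map.1 hf
    exact Fintype.mem_piFinset.1 hF i
  refine ⟨{ Ω := Ω
            ν := ν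
            nonneg := fun f hf => prod_nonneg fun i _ => C.nonneg _ (hmem f hf i)
            total := ?_
            le_top := fun f hf z => C.le_top _ (hmem f hf z.2) z.1
            classBound := ?_
            spread := ?_ }, hmem⟩
  · rw [hΩ, sum_map]
    show ∑ F ∈ Fintype.piFinset (fun _ : Fin m => C.Ω), ∏ i, C.ν (F i) = 1
    rw [← prod_univ_sum]
    simp [C.total]
  · intro f hf a ha
    calc (univ.filter fun z => f z = a).card
        = ∑ i : Fin m, (univ.filter fun x => f (x, i) = a).card := by
          simp only [card_filter, Fintype.sum_prod_type_right]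
      _ ≤ ∑ _i : Fin m, b a := sum_le_sum fun i _ => C.classBound _ (hmem f hf i) a ha
      _ = _ := by simp
  · intro a κ A ℓ hA
    set Ai : Fin m → Finset X := fun i => univ.filter fun x => (x, i) ∈ A
    have hAi : ∑ i, (Ai i).card = A.card := by
      simp only [Ai, card_filter]
      rw [← Fintype.sum_prod_type_right (f := fun z => if z ∈ A then 1 else 0), ← card_filter, filter_mem_eq_inter, univ_inter]
    have h1 : (Fintype.piFinset fun _ : Fin m => C.Ω).filter
          (fun F => key a (e F) = κ ∧ ∀ z ∈ A, e F z = ℓ z) =
        Fintype.piFinset fun i => C.Ω.filter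
          (fun g => key a g = (fun x => κ (x, i)) ∧ ∀ x ∈ Ai i, g x = ℓ (x, i)) := by
      ext F
      simp only [mem_filter, Fintype.mem_piFinset, Ai, mem_univ, true_and, he]
      constructor
      · rintro ⟨hF, hk, hl⟩ i
        exact ⟨hF i, funext fun x => congrFun hk (x, i), fun x hx => hl (x, i) hx⟩
      · intro h
        exact ⟨fun i => (h i).1, funext fun z => congrFun (h z.2).2.1 z.1,
          fun z hz => (h z.2).2.2 z.1 hz⟩
    have h2 : (Fintype.piFinset fun _ : Fin m => C.Ω).filter (fun F => key a (e F) = κ) =
        Fintype.piFinset fun i => C.Ω.filter (fun g => key a g = fun x => κ (x, i)) := by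
      ext F
      simp only [mem_filter, Fintype.mem_piFinset, he]
      constructor
      · rintro ⟨hF, hk⟩ i
        exact ⟨hF i, funext fun x => congrFun hk (x, i)⟩
      · intro h
        exact ⟨fun i => (h i).1, funext fun z => congrFun (h z.2).2 z.1⟩
    rw [hΩ, filter_map, filter_map, sum_map, sum_map]
    simp only [Function.comp_def, h1, h2]
    show ∑ F ∈ _, ∏ i : Fin m, C.ν ((F : Fin m → X → ℕ) i) ≤
      q ^ A.card * ∑ F ∈ _, ∏ i : Fin m, C.ν ((F : Fin m → X → ℕ) i)
    rw [← prod_univ_sum, ← prod_univ_sum, ← hAi, ← prod_pow_eq_pow_sum, ← prod_mul_distrib]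
    refine prod_le_prod (fun i _ => sum_nonneg fun g hg => C.nonneg g (mem_filter.1 hg).1)
      fun i _ => ?_
    exact C.spread a _ (Ai i) (fun x => ℓ (x, i)) fun x hx => hA _ (mem_filter.1 hx).2

end Tensor

end Vale.Agent.P064.Second
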