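import Vale.Agent.P064.FKNP
import Vale.Agent.P064.Second.Chain

/-!
Pipelined rounds of random sampling along a chain of label functions. In each round every active
level is sparsified once, by minimum fragments inside its own conditional class, and one further
level becomes active.
-/

open Finset

namespace Vale.Agent.P064.Second

variable {Y : Type*}

/-- The points of `S` with label above `a`. -/
def out (a : ℕ) (f : Y → ℕ) (S : Finset Y) : Finset Y := S.filter fun x => a < f x

lemma mem_out {a : ℕ} {f : Y → ℕ} {S : Finset Y} {x : Y} :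
    x ∈ out a f S ↔ x ∈ S ∧ a < f x := mem_filter

lemma key_mono {a a' : ℕ} (h : a' ≤ a) {f g : Y → ℕ} (e : key a f = key a g) :
    key a' f = key a' g := by
  have hf : ∀ f : Y → ℕ, key a' (key a f) = key a' f := fun f => funext fun x => by
    simp only [key]
    split_ifs <;> omega
  rw [← hf f, e, hf g]

lemma eq_of_key {a : ℕ} {f g : Y → ℕ} (e : key a f = key a g) {x : Y} (h0 : f x ≠ 0)
    (ha : f x ≤ a) : g x = f x := by
  have := congrFun e x
  simp only [key] at this
  rw [if_pos ha] at this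
  split_ifs at this with h <;> omega

variable [DecidableEq Y]

section Round

variable (Ω1 : Finset (Y → ℕ)) (R : (Y → ℕ) → Finset Y) (W : Finset Y)
variable [Fintype Y]

/-- The candidates that may replace `f` at level `a`. -/
def cands (a : ℕ) (f : Y → ℕ) (cur : Finset Y) : Finset (Y → ℕ) :=
  Ω1.filter fun g => key a g = key a f ∧ out a g (R g) ⊆ W ∪ out a f cur

/-- The candidate with the fewest unsampled points above level `a`. -/
noncomputable def pick (a : ℕ) (f : Y → ℕ) (cur : Finset Y) : Y → ℕ :=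
  if h : (cands Ω1 R W a f cur).Nonempty then
    (exists_min_image (cands Ω1 R W a f cur) (fun g => (out a g (R g) \ W).card) h).choose
  else f

/-- The fragment at level `a`. -/
noncomputable def newPart (a : ℕ) (f : Y → ℕ) (cur : Finset Y) : Finset Y :=
  out a (pick Ω1 R W a f cur) (R (pick Ω1 R W a f cur)) \ W

/-- One level step. -/
noncomputable def step (a : ℕ) (f : Y → ℕ) (cur : Finset Y) : Finset Y :=
  newPart Ω1 R W a f cur ∪ (R (pick Ω1 R W a f cur)).filter fun x => key a f x ≠ 0

/-- The remainder of `f` before the `j`-th level step. -/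
noncomputable def curAt (K : ℕ) (f : Y → ℕ) : ℕ → Finset Y
  | 0 => R f
  | j + 1 => step Ω1 R W (K - 1 - j) f (curAt K f j)

/-- The invariant of the level steps. -/
structure Good (k : ℕ → ℕ) (act : ℕ → Prop) (a : ℕ) (f : Y → ℕ) (cur : Finset Y) : Prop where
  sub : cur ⊆ supp f
  wit : ∃ g ∈ Ω1, key a g = key a f ∧ R g ⊆ W ∪ cur
  caps : ∀ d, act d → (out d f cur).card ≤ k d

variable {Ω1 R W} {k : ℕ → ℕ} {act : ℕ → Prop}

lemma pick_spec (_hR : ∀ g ∈ Ω1, R g ⊆ supp g) {a : ℕ} {f : Y → ℕ} {cur : Finset Y}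
    (h : Good Ω1 R W k act a f cur) :
    pick Ω1 R W a f cur ∈ cands Ω1 R W a f cur ∧
      ∀ g ∈ cands Ω1 R W a f cur,
        (newPart Ω1 R W a f cur).card ≤ (out a g (R g) \ W).card := by
  obtain ⟨g, hg, hk, hsub⟩ := h.wit
  have hne : (cands Ω1 R W a f cur).Nonempty := by
    refine ⟨g, mem_filter.2 ⟨hg, hk, fun x hx => ?_⟩⟩
    obtain ⟨hx, ha⟩ := mem_out.1 hx
    rcases mem_union.1 (hsub hx) with h' | h'
    · exact mem_union_left _ h'
    · refine mem_union_right _ (mem_out.2 ⟨h', ?_⟩)
      by_contra hf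
      have := eq_of_key hk.symm (mem_supp.1 (h.sub h')) (not_lt.1 hf)
      omega
  have := (exists_min_image _ (fun g => (out a g (R g) \ W).card) hne).choose_spec
  simp only [newPart, pick, dif_pos hne]
  exact this

lemma newPart_subset (hR : ∀ g ∈ Ω1, R g ⊆ supp g) {a : ℕ} {f : Y → ℕ} {cur : Finset Y}
    (h : Good Ω1 R W k act a f cur) : newPart Ω1 R W a f cur ⊆ out a f cur := by
  intro x hx
  obtain ⟨hx, hW⟩ := mem_sdiff.1 hx
  exact (mem_union.1 ((mem_filter.1 (pick_spec hR h).1).2.2 hx)).resolve_left hW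

lemma step_out_le {a d : ℕ} {f : Y → ℕ} {cur : Finset Y} (hd : a ≤ d) :
    out d f (step Ω1 R W a f cur) ⊆ out d f (newPart Ω1 R W a f cur) := by
  intro x hx
  obtain ⟨hx, hlt⟩ := mem_out.1 hx
  rcases mem_union.1 hx with h' | h'
  · exact mem_out.2 ⟨h', hlt⟩
  · have := (mem_filter.1 h').2
    simp only [key, ne_eq] at this
    split_ifs at this with hh
    · omega
    · simp at this

lemma step_good (hR : ∀ g ∈ Ω1, R g ⊆ supp g)
    (hk : ∀ g ∈ Ω1, ∀ d, act d → (out d g (R g)).card ≤ k d)
    {a a' : ℕ} (ha : a' ≤ a) {f : Y → ℕ} {cur : Finset Y} (h : Good Ω1 R W k act a f cur) :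
    Good Ω1 R W k act a' f (step Ω1 R W a f cur) := by
  set g := pick Ω1 R W a f cur with hgdef
  obtain ⟨hg, hkey, -⟩ := mem_filter.1 (pick_spec hR h).1
  have hN := newPart_subset hR h
  refine ⟨?_, ⟨g, hg, key_mono ha hkey, ?_⟩, fun d hd => ?_⟩
  · refine union_subset ((hN.trans (filter_subset _ _)).trans h.sub) fun x hx => mem_supp.2 ?_
    intro h0
    exact (mem_filter.1 hx).2 (by simp [key, h0])
  · intro x hx
    by_cases hxW : x ∈ W
    · exact mem_union_left _ hxW
    refine mem_union_right _ ?_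
    rcases lt_or_ge a (g x) with hlt | hle
    · exact mem_union_left _ (mem_sdiff.2 ⟨mem_out.2 ⟨hx, hlt⟩, hxW⟩)
    · refine mem_union_right _ (mem_filter.2 ⟨hx, ?_⟩)
      rw [← hkey, key, if_pos hle]
      exact mem_supp.1 (hR g hg hx)
  · rcases le_or_gt a d with hda | hda
    · exact (card_le_card ((step_out_le hda).trans
        (filter_subset_filter _ (hN.trans (filter_subset _ _))))).trans (h.caps d hd)
    · refine (card_le_card fun x hx => ?_).trans (hk g hg d hd)
      obtain ⟨hx, hlt⟩ := mem_out.1 hx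
      rcases mem_union.1 hx with h' | h'
      · obtain ⟨h1, h2⟩ := mem_out.1 (mem_sdiff.1 h').1
        exact mem_out.2 ⟨h1, hda.trans h2⟩
      · obtain ⟨h1, h2⟩ := mem_filter.1 h'
        have hfa : f x ≠ 0 ∧ f x ≤ a := by
          simp only [key, ne_eq] at h2
          split_ifs at h2 with hh
          · exact ⟨h2, hh⟩
          · simp at h2
        refine mem_out.2 ⟨h1, ?_⟩
        rw [hgdef, eq_of_key hkey.symm hfa.1 hfa.2]
        exact hlt

lemma curAt_good (hR : ∀ g ∈ Ω1, R g ⊆ supp g)
    (hk : ∀ g ∈ Ω1, ∀ d, act d → (out d g (R g)).card ≤ k d) (K : ℕ) {f : Y → ℕ}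
    (hf : f ∈ Ω1) : ∀ j, Good Ω1 R W k act (K - 1 - j) f (curAt Ω1 R W K f j)
  | 0 => ⟨hR f hf, ⟨f, hf, rfl, subset_union_right⟩, hk f hf⟩
  | j + 1 => step_good hR hk (by omega) (curAt_good hR hk K hf j)

lemma out_curAt (hR : ∀ g ∈ Ω1, R g ⊆ supp g)
    (hk : ∀ g ∈ Ω1, ∀ d, act d → (out d g (R g)).card ≤ k d) (K : ℕ) {f : Y → ℕ}
    (hf : f ∈ Ω1) {j i : ℕ} (h : j ≤ i) :
    out (K - 1 - j) f (curAt Ω1 R W K f (i + 1)) ⊆
      newPart Ω1 R W (K - 1 - j) f (curAt Ω1 R W K f j) := by
  induction i, h using Nat.le_induction with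
  | base => exact (step_out_le le_rfl).trans (filter_subset _ _)
  | succ i hi ih =>
    refine ((step_out_le (by omega)).trans ?_).trans ih
    exact filter_subset_filter _
      ((newPart_subset hR (curAt_good hR hk K hf (i + 1))).trans (filter_subset _ _))

end Round

lemma card_labels {T : Type*} [Fintype T] [DecidableEq T] (K k : ℕ) :
    (((Fintype.piFinset fun _ : T => range K).filter fun g => ∑ x, g x ≤ k).card : ℝ) ≤
      2 ^ (k + Fintype.card T) := by
  set L := (Fintype.piFinset fun _ : T => range K).filter fun g => ∑ x, g x ≤ k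
  have h : (L.card : ℝ) * (1 / 2) ^ k ≤ 2 ^ Fintype.card T := by
    calc (L.card : ℝ) * (1 / 2) ^ k = ∑ _g ∈ L, (1 / 2 : ℝ) ^ k := by
          rw [sum_const, nsmul_eq_mul]
      _ ≤ ∑ g ∈ L, ∏ x, (1 / 2 : ℝ) ^ g x := sum_le_sum fun g hg => by
          rw [prod_pow_eq_pow_sum]
          exact pow_le_pow_of_le_one (by norm_num) (by norm_num) (mem_filter.1 hg).2
      _ ≤ ∑ g ∈ Fintype.piFinset (fun _ : T => range K), ∏ x, (1 / 2 : ℝ) ^ g x :=
          sum_le_sum_of_subset_of_nonneg (filter_subset _ _)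
            fun g _ _ => prod_nonneg fun x _ => by positivity
      _ = ∏ _x : T, ∑ i ∈ range K, (1 / 2 : ℝ) ^ i :=
          (prod_univ_sum (fun _ : T => range K) fun _ i => (1 / 2 : ℝ) ^ i).symm
      _ ≤ ∏ _x : T, (2 : ℝ) :=
          prod_le_prod (fun _ _ => by positivity) fun _ _ => sum_geometric_two_le K
      _ = _ := by simp
  rw [one_div_pow, mul_one_div, div_le_iff₀ (by positivity)] at h
  exact h.trans_eq (by rw [pow_add, mul_comm])

variable [Fintype Y] {q : ℝ} {K : ℕ} {b : ℕ → ℕ}

open FKNP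

/-- Mass of the label functions that agree with a key and have few high labels on `T`. -/
lemma label_bound (hq : 0 ≤ q) (C : Chain Y q K b) (a k : ℕ) (κ : Y → ℕ) (T : Finset Y) :
    ∑ f ∈ C.Ω.filter (fun f => key a f = κ ∧ (∀ x ∈ T, a < f x) ∧
        ∑ x ∈ T, (f x - (a + 1)) ≤ k), C.ν f ≤
      2 ^ (k + T.card) * (q ^ T.card * ∑ f ∈ C.Ω.filter (fun f => key a f = κ), C.ν f) := by
  set L := (Fintype.piFinset fun _ : T => range K).filter fun g => ∑ x, g x ≤ k
  set φ : (Y → ℕ) → (T → ℕ) := fun f x => f x.1 - (a + 1)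
  have hnn : 0 ≤ ∑ f ∈ C.Ω.filter (fun f => key a f = κ), C.ν f :=
    sum_nonneg fun f hf => C.nonneg f (mem_filter.1 hf).1
  rw [← sum_fiberwise_of_maps_to (t := L) (g := φ)]
  · calc _ ≤ ∑ _g ∈ L, q ^ T.card * ∑ f ∈ C.Ω.filter (fun f => key a f = κ), C.ν f := by
          refine sum_le_sum fun g _ => ?_
          set ℓ : Y → ℕ := fun x => if h : x ∈ T then g ⟨x, h⟩ + (a + 1) else 0 with hℓ
          refine le_trans ?_ (C.spread a κ T ℓ fun x hx => by simp only [hℓ, dif_pos hx]; omega)
          refine sum_le_sum_of_subset_of_nonneg (fun f hf => ?_)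
            fun f hf _ => C.nonneg f (mem_filter.1 hf).1
          simp only [mem_filter] at hf ⊢
          refine ⟨hf.1.1, hf.1.2.1, fun x hx => ?_⟩
          have h1 := hf.1.2.2.1 x hx
          have h2 : f x - (a + 1) = g ⟨x, hx⟩ := congrFun hf.2 ⟨x, hx⟩
          simp only [hℓ, dif_pos hx]
          omega
      _ ≤ _ := by
          rw [sum_const, nsmul_eq_mul]
          refine mul_le_mul_of_nonneg_right ?_ (mul_nonneg (by positivity) hnn)
          have := card_labels (T := T) K k
          rw [Fintype.card_coe] at this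
          exact this
  · intro f hf
    rw [mem_filter] at hf
    refine mem_filter.2 ⟨Fintype.mem_piFinset.2 fun x => mem_range.2 ?_, ?_⟩
    · have h1 := hf.2.2.1 x.1 x.2
      have h2 := C.le_top f hf.1 x.1
      simp only [φ]
      omega
    · simp only [φ]
      rw [sum_coe_sort T fun x => f x - (a + 1)]
      exact hf.2.2.2

/-- The labels above `a` are few in total when each tail is small. -/
lemma sum_labels_le (C : Chain Y q K b) {f : Y → ℕ} (hf : f ∈ C.Ω) {a : ℕ} {T : Finset Y}
    (hT : ∀ x ∈ T, a < f x) :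
    ∑ x ∈ T, (f x - (a + 1)) = ∑ d ∈ Ico (a + 1) K, (out d f T).card := by
  simp only [out, card_filter]
  rw [sum_comm]
  refine sum_congr rfl fun x hx => ?_
  have h1 := hT x hx
  have h2 := C.le_top f hf x
  rw [← card_filter]
  rw [show (Ico (a + 1) K).filter (fun d => d < f x) = Ico (a + 1) (f x) by
    ext d; simp only [mem_filter, mem_Ico]; omega]
  simp

/-- Few members have a large fragment at a given level. -/
lemma bad_bound (C : Chain Y q K b) (hq : 0 < q) (hp1 : 2 ^ 16 * q ≤ 1)
    {Ω1 : Finset (Y → ℕ)} (hΩ : Ω1 ⊆ C.Ω) {R : (Y → ℕ) → Finset Y}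
    (hR : ∀ g ∈ Ω1, R g ⊆ supp g) {k : ℕ → ℕ} {act : ℕ → Prop}
    (hk : ∀ g ∈ Ω1, ∀ d, act d → (out d g (R g)).card ≤ k d)
    {a : ℕ} (ha : act a) (hact : ∀ d ∈ Ico (a + 1) K, act d)
    (hsum : ∑ d ∈ Ico (a + 1) K, k d ≤ k a) {k' : ℕ} (h4 : k a ≤ 4 * k')
    (cur : Finset Y → (Y → ℕ) → Finset Y)
    (hgood : ∀ W, ∀ f ∈ Ω1, Good Ω1 R W k act a f (cur W f)) :
    Ex (2 ^ 16 * q) univ (fun W =>
      ∑ f ∈ Ω1.filter (fun f => k' < (newPart Ω1 R W a f (cur W f)).card), C.ν f) ≤
        (1 / 2) ^ k a := by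
  classical
  set p := 2 ^ 16 * q with hpdef
  have hp0 : 0 < p := by positivity
  set NP : Finset Y → (Y → ℕ) → Finset Y := fun W f => newPart Ω1 R W a f (cur W f)
  set P := ((univ : Finset Y).powerset ×ˢ Ω1).filter fun x => k' < (NP x.1 x.2).card with hP
  set cand : Finset Y → (Y → ℕ) → Finset (Finset Y) := fun Z κ =>
    if h : ∃ g ∈ Ω1, key a g = κ ∧ out a g (R g) ⊆ Z then
      (out a h.choose (R h.choose)).powerset.filter fun T => k' < T.card
    else ∅ with hcand
  set F : (Y → ℕ) → Finset Y → Finset (Y → ℕ) := fun κ T =>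
    C.Ω.filter fun f => key a f = κ ∧ (∀ x ∈ T, a < f x) ∧ ∑ x ∈ T, (f x - (a + 1)) ≤ k a
  set tgt : Finset Y → Finset ((_ : Y → ℕ) × ((_ : Finset Y) × (Y → ℕ))) := fun Z =>
    (C.Ω.image (key a)).sigma fun κ => (cand Z κ).sigma (F κ)
  set g : Finset Y × (Y → ℕ) → (_ : Finset Y) × ((_ : Y → ℕ) × ((_ : Finset Y) × (Y → ℕ))) :=
    fun x => ⟨x.1 ∪ NP x.1 x.2, key a x.2, NP x.1 x.2, x.2⟩ with hg
  set G : (_ : Finset Y) × ((_ : Y → ℕ) × ((_ : Finset Y) × (Y → ℕ))) → ℝ := fun y =>
    wt p univ y.1 * ((1 / p) ^ y.2.2.1.card * C.ν y.2.2.2) with hG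
  have e1 : Ex p univ (fun W => ∑ f ∈ Ω1.filter (fun f => k' < (NP W f).card), C.ν f) =
      ∑ x ∈ P, wt p univ x.1 * C.ν x.2 := by
    simp only [Ex, hP, sum_filter, sum_product, mul_sum, mul_ite, mul_zero]
  have hdis : ∀ W f, Disjoint W (NP W f) := fun W f => disjoint_sdiff
  have hmem : ∀ x ∈ P, g x ∈ (univ : Finset Y).powerset.sigma tgt := by
    rintro ⟨W, f⟩ hx
    simp only [hP, mem_filter, mem_product] at hx
    obtain ⟨⟨-, hf⟩, hc⟩ := hx
    have hgd := hgood W f hf
    obtain ⟨hpk, hmin⟩ := pick_spec hR hgd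
    obtain ⟨hpΩ, hpkey, -⟩ := mem_filter.1 hpk
    have hsub := newPart_subset hR hgd
    have hex : ∃ h ∈ Ω1, key a h = key a f ∧ out a h (R h) ⊆ W ∪ NP W f :=
      ⟨_, hpΩ, hpkey, by simp only [NP, newPart]; rw [union_sdiff_self_eq_union]; exact subset_union_right⟩
    refine mem_sigma.2 ⟨mem_powerset.2 (subset_univ _), mem_sigma.2 ⟨mem_image_of_mem _ (hΩ hf),
      mem_sigma.2 ⟨?_, ?_⟩⟩⟩
    · simp only [hg, hcand, dif_pos hex]
      obtain ⟨hh, hhk, hhs⟩ := hex.choose_spec
      refine mem_filter.2 ⟨mem_powerset.2 ?_, hc⟩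
      have h1 := hmin _ (mem_filter.2 ⟨hh, hhk,
        hhs.trans (union_subset_union_right hsub)⟩)
      have h2 : out a hex.choose (R hex.choose) \ W ⊆ NP W f := fun x hx =>
        (mem_union.1 (hhs (mem_sdiff.1 hx).1)).resolve_left (mem_sdiff.1 hx).2
      exact (eq_of_subset_of_card_le h2 h1).symm.subset.trans sdiff_subset
    · refine mem_filter.2 ⟨hΩ hf, rfl, fun x hx => (mem_out.1 (hsub hx)).2, ?_⟩
      rw [sum_labels_le C (hΩ hf) fun x hx => (mem_out.1 (hsub hx)).2]
      refine le_trans (sum_le_sum fun d hd => ?_) hsum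
      exact (card_le_card (filter_subset_filter _ (hsub.trans (filter_subset _ _)))).trans
        (hgd.caps d (hact d hd))
  have hinj : Set.InjOn g P := by
    rintro ⟨W, f⟩ _ ⟨W', f'⟩ _ he
    simp only [hg, Sigma.mk.injEq, heq_eq_eq] at he
    obtain ⟨hu, -, hT, rfl⟩ := he
    rw [Prod.mk.injEq]
    refine ⟨?_, rfl⟩
    have h3 : (W ∪ NP W f) \ NP W f = (W' ∪ NP W' f) \ NP W f := by rw [hu]
    rwa [union_sdiff_cancel_right (hdis W f), hT,
      union_sdiff_cancel_right (hdis W' f)] at h3
  have hwt : ∀ x ∈ P, wt p univ x.1 * C.ν x.2 ≤ G (g x) := by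
    rintro ⟨W, f⟩ hx
    have hν : 0 ≤ C.ν f := C.nonneg f (hΩ (mem_product.1 (mem_filter.1 hx).1).2)
    simp only [hG, hg]
    rw [← mul_assoc]
    refine mul_le_mul_of_nonneg_right ?_ hν
    rw [one_div_pow, mul_one_div, le_div_iff₀ (by positivity)]
    set T := NP W f
    have hcard : (W ∪ T).card = W.card + T.card := card_union_of_disjoint (hdis W f)
    have hle : W.card + T.card ≤ (univ : Finset Y).card := hcard ▸ card_le_card (subset_univ _)
    simp only [wt, hcard]
    rw [show (univ : Finset Y).card - W.card =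
      ((univ : Finset Y).card - (W.card + T.card)) + T.card by omega, pow_add, pow_add]
    calc p ^ W.card * ((1 - p) ^ (univ.card - (W.card + T.card)) * (1 - p) ^ T.card) * p ^ T.card
        = (p ^ W.card * p ^ T.card * (1 - p) ^ (univ.card - (W.card + T.card))) *
            (1 - p) ^ T.card := by ring
      _ ≤ (p ^ W.card * p ^ T.card * (1 - p) ^ (univ.card - (W.card + T.card))) * 1 := by
          have : 0 ≤ 1 - p := by linarith
          exact mul_le_mul_of_nonneg_left (pow_le_one₀ this (by linarith)) (by positivity)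
      _ = _ := mul_one _
  have htgt : ∀ Z, ∑ y ∈ tgt Z, (1 / p) ^ y.2.1.card * C.ν y.2.2 ≤ (1 / 2) ^ k a := by
    intro Z
    simp only [tgt]
    rw [sum_sigma]
    calc _ ≤ ∑ κ ∈ C.Ω.image (key a),
          (1 / 2) ^ k a * ∑ f ∈ C.Ω.filter (fun f => key a f = κ), C.ν f := by
          refine sum_le_sum fun κ _ => ?_
          have hnn : 0 ≤ ∑ f ∈ C.Ω.filter (fun f => key a f = κ), C.ν f :=
            sum_nonneg fun f hf => C.nonneg f (mem_filter.1 hf).1
          rw [sum_sigma]
          calc _ ≤ ∑ _T ∈ cand Z κ, (1 / 4 : ℝ) ^ k a *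
                ∑ f ∈ C.Ω.filter (fun f => key a f = κ), C.ν f := by
                refine sum_le_sum fun T hT => ?_
                have hTk : k' < T.card := by
                  simp only [hcand] at hT
                  split_ifs at hT with h
                  · exact (mem_filter.1 hT).2
                  · simp at hT
                simp only
                rw [← mul_sum]
                refine (mul_le_mul_of_nonneg_left (label_bound hq.le C a (k a) κ T)
                  (by positivity)).trans ?_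
                rw [← mul_assoc, ← mul_assoc]
                refine mul_le_mul_of_nonneg_right ?_ hnn
                have e : (1 / p) ^ T.card * 2 ^ (k a + T.card) * q ^ T.card =
                    2 ^ k a * (1 / 2 : ℝ) ^ (15 * T.card) := by
                  have : 1 / p * 2 * q = (1 / 2 : ℝ) ^ 15 := by
                    rw [hpdef]; field_simp
                  rw [pow_mul, ← this, mul_pow, mul_pow, pow_add]
                  ring
                rw [e]
                calc (2 : ℝ) ^ k a * (1 / 2) ^ (15 * T.card) ≤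
                      2 ^ k a * (1 / 2) ^ (3 * k a) :=
                      mul_le_mul_of_nonneg_left
                        (pow_le_pow_of_le_one (by norm_num) (by norm_num) (by omega))
                        (by positivity)
                  _ = _ := by rw [pow_mul, ← mul_pow]; norm_num
            _ ≤ _ := by
                rw [sum_const, nsmul_eq_mul, ← mul_assoc]
                refine mul_le_mul_of_nonneg_right ?_ hnn
                have hc : ((cand Z κ).card : ℝ) ≤ 2 ^ k a := by
                  simp only [hcand]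
                  split_ifs with h
                  · have := (card_filter_le _ fun T : Finset Y => k' < T.card).trans_eq
                      (card_powerset (out a h.choose (R h.choose)))
                    exact_mod_cast this.trans (Nat.pow_le_pow_right two_pos
                      (hk _ h.choose_spec.1 a ha))
                  · simp
                refine (mul_le_mul_of_nonneg_right hc (by positivity)).trans_eq ?_
                rw [← mul_pow]
                norm_num
      _ = _ := by
          rw [← mul_sum, sum_fiberwise_of_maps_to (fun f hf => mem_image_of_mem _ hf), C.total,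
            mul_one]
  calc Ex p univ (fun W => ∑ f ∈ Ω1.filter (fun f => k' < (NP W f).card), C.ν f)
      = ∑ x ∈ P, wt p univ x.1 * C.ν x.2 := e1
    _ ≤ ∑ x ∈ P, G (g x) := sum_le_sum hwt
    _ = ∑ y ∈ P.image g, G y := (sum_image hinj).symm
    _ ≤ ∑ y ∈ (univ : Finset Y).powerset.sigma tgt, G y := by
        refine sum_le_sum_of_subset_of_nonneg (image_subset_iff.2 hmem) fun y hy _ => ?_
        simp only [tgt, mem_sigma] at hy
        exact mul_nonneg (wt_nonneg hp0.le hp1 _ _)
          (mul_nonneg (by positivity) (C.nonneg _ (mem_filter.1 hy.2.2.2).1))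
    _ = Ex p univ (fun Z => ∑ y ∈ tgt Z, (1 / p) ^ y.2.1.card * C.ν y.2.2) := by
        simp only [Ex, hG, mul_sum, sum_sigma]
    _ ≤ Ex p univ (fun _ => (1 / 2) ^ k a) := Ex_mono hp0.le hp1 fun Z _ => htgt Z
    _ = _ := Ex_const _ _ _

/-- The bound on the tail above `a` after `r` rounds. -/
def cap (K r a : ℕ) : ℕ := 2 ^ (8 * (K + 2) + 2 * K - a - 2 * r)

/-- The state of the rounds. -/
structure St (C : Chain Y q K b) (r : ℕ) (G : Finset Y) (Ω1 : Finset (Y → ℕ))
    (R : (Y → ℕ) → Finset Y) : Prop where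
  sub : Ω1 ⊆ C.Ω
  rsub : ∀ f ∈ Ω1, R f ⊆ supp f
  cover : ∀ f ∈ Ω1, ∃ g ∈ C.Ω, supp g ⊆ G ∪ R f
  caps : ∀ f ∈ Ω1, ∀ d, d < K → K ≤ d + r + 1 → (out d f (R f)).card ≤ cap K r d

/-- The loss of one level in one round. -/
noncomputable def lossUnit (K : ℕ) : ℝ := (1 / 2) ^ (7 * K + 15)

/-- One round. -/
lemma round (C : Chain Y q K fun a => 2 ^ (8 * (K + 2)) * 2 ^ a) (hq : 0 < q)
    (hp1 : 2 ^ 16 * q ≤ 1) {r : ℕ} (hr : r ≤ K + 1) {G : Finset Y} {Ω1 : Finset (Y → ℕ)}
    {R : (Y → ℕ) → Finset Y} (h : St C r G Ω1 R) :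
    ∃ (Ω2 : Finset Y → Finset (Y → ℕ)) (R2 : Finset Y → (Y → ℕ) → Finset Y),
      (∀ W, St C (r + 1) (G ∪ W) (Ω2 W) (R2 W)) ∧
      (∑ f ∈ Ω1, C.ν f) - K * lossUnit K ≤
        Ex (2 ^ 16 * q) univ fun W => ∑ f ∈ Ω2 W, C.ν f := by
  classical
  set p := 2 ^ 16 * q
  have hp0 : 0 ≤ p := by positivity
  set act : ℕ → Prop := fun d => d < K ∧ K ≤ d + r + 1
  set J := min K (r + 1)
  set fin : Finset Y → (Y → ℕ) → Finset Y := fun W f => curAt Ω1 R W K f J
  set keep : Finset Y → (Y → ℕ) → Prop := fun W f =>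
    ∀ d ∈ range K, K ≤ d + r + 1 → (out d f (fin W f)).card ≤ cap K (r + 1) d
  have hk : ∀ g ∈ Ω1, ∀ d, act d → (out d g (R g)).card ≤ cap K r d :=
    fun g hg d hd => h.caps g hg d hd.1 hd.2
  refine ⟨fun W => Ω1.filter (keep W), fin, fun W => ?_, ?_⟩
  · refine ⟨(filter_subset _ _).trans h.sub, fun f hf => ?_, fun f hf => ?_, fun f hf d hd hd' => ?_⟩
    · exact (curAt_good h.rsub hk K (mem_filter.1 hf).1 J).sub
    · obtain ⟨g, hg, -, hgs⟩ :=
        (curAt_good (W := W) h.rsub hk K (mem_filter.1 hf).1 J).wit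
      obtain ⟨g', hg', hs⟩ := h.cover g hg
      refine ⟨g', hg', hs.trans (union_subset ?_ (hgs.trans ?_))⟩
      · exact subset_union_left.trans subset_union_left
      · exact union_subset (subset_union_right.trans subset_union_left) subset_union_right
    · obtain ⟨hf1, hkeep⟩ := mem_filter.1 hf
      rcases le_or_gt K (d + r + 1) with hd2 | hd2
      · exact hkeep d (mem_range.2 hd) hd2
      · have hKd : K = d + r + 2 := by omega
        have h1 : out d f (fin W f) ⊆
            out (d + 1) f (fin W f) ∪ univ.filter fun x => f x = d + 1 := by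
          intro x hx
          obtain ⟨hx, hlt⟩ := mem_out.1 hx
          rcases lt_or_ge (d + 1) (f x) with h' | h'
          · exact mem_union_left _ (mem_out.2 ⟨hx, h'⟩)
          · exact mem_union_right _ (mem_filter.2 ⟨mem_univ _, by omega⟩)
        refine (card_le_card h1).trans ((card_union_le _ _).trans ?_)
        refine (add_le_add (hkeep (d + 1) (mem_range.2 (by omega)) (by omega))
          (C.classBound f (h.sub hf1) (d + 1) (by omega))).trans ?_
        simp only [cap]
        rw [show 8 * (K + 2) + 2 * K - (d + 1) - 2 * (r + 1) = 8 * (K + 2) + (d + 1) by omega,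
          show 8 * (K + 2) + 2 * K - d - 2 * (r + 1) = 8 * (K + 2) + (d + 1) + 1 by omega,
          pow_succ 2 (8 * (K + 2) + (d + 1)), ← pow_add]
        omega
  · have hlost : ∀ W, (∑ f ∈ Ω1, C.ν f) - ∑ f ∈ Ω1.filter (keep W), C.ν f ≤
        ∑ j ∈ range J, ∑ f ∈ Ω1.filter (fun f => cap K (r + 1) (K - 1 - j) <
          (newPart Ω1 R W (K - 1 - j) f (curAt Ω1 R W K f j)).card), C.ν f := by
      intro W
      rw [← sum_filter_add_sum_filter_not Ω1 (keep W) C.ν, add_sub_cancel_left]
      simp only [sum_filter]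
      rw [sum_comm]
      refine sum_le_sum fun f hf => ?_
      have hν := C.nonneg f (h.sub hf)
      by_cases hb : keep W f
      swap
      · rw [if_pos hb]
        simp only [keep, not_forall, exists_prop, mem_range, not_le] at hb
        obtain ⟨d, hd, hd2, hlt⟩ := hb
        have hj : K - 1 - d ∈ range J := mem_range.2 (by omega)
        refine le_trans ?_ (single_le_sum (fun j _ => ?_) hj)
        · rw [show K - 1 - (K - 1 - d) = d by omega, if_pos]
          refine hlt.trans_le (card_le_card ?_)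
          have := out_curAt (W := W) h.rsub hk K hf (j := K - 1 - d) (i := J - 1)
            (by omega)
          rw [show K - 1 - (K - 1 - d) = d by omega, show J - 1 + 1 = J by omega] at this
          exact this
        · split_ifs <;> first | exact hν | exact le_rfl
      · rw [if_neg (not_not.2 hb)]
        exact sum_nonneg fun j _ => by split_ifs <;> first | exact hν | exact le_rfl
    have hEx : Ex p univ (fun W => ∑ j ∈ range J, ∑ f ∈ Ω1.filter (fun f =>
        cap K (r + 1) (K - 1 - j) <
          (newPart Ω1 R W (K - 1 - j) f (curAt Ω1 R W K f j)).card), C.ν f) ≤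
        (J : ℝ) * lossUnit K := by
      calc _ = ∑ j ∈ range J, Ex p univ (fun W => ∑ f ∈ Ω1.filter (fun f =>
            cap K (r + 1) (K - 1 - j) <
              (newPart Ω1 R W (K - 1 - j) f (curAt Ω1 R W K f j)).card), C.ν f) := by
            simp only [Ex, mul_sum]
            exact sum_comm
        _ ≤ ∑ _j ∈ range J, lossUnit K := by
            refine sum_le_sum fun j hj => ?_
            have hj' : j < K ∧ j ≤ r := by rw [mem_range] at hj; omega
            refine (bad_bound C hq hp1 h.sub h.rsub hk (a := K - 1 - j)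
              ⟨by omega, by omega⟩ (fun d hd => by rw [mem_Ico] at hd; exact ⟨by omega, by omega⟩)
              ?_ ?_ (fun W f => curAt Ω1 R W K f j)
              (fun W f hf => curAt_good h.rsub hk K hf j)).trans ?_
            · simp only [cap]
              set E := 8 * (K + 2) + 2 * K - 2 * r with hE
              have e : ∀ d, 8 * (K + 2) + 2 * K - d - 2 * r = E - d := fun d => by omega
              simp only [e]
              rw [← sum_image (g := fun d => E - d) (f := fun i => (2 : ℕ) ^ i)]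
              · refine (Nat.geomSum_lt le_rfl fun i hi => ?_).le
                obtain ⟨d, hd, rfl⟩ := mem_image.1 hi
                rw [mem_Ico] at hd
                omega
              · intro d hd d' hd' he
                rw [mem_coe, mem_Ico] at hd hd'
                simp only at he
                omega
            · simp only [cap]
              rw [show 8 * (K + 2) + 2 * K - (K - 1 - j) - 2 * r =
                8 * (K + 2) + 2 * K - (K - 1 - j) - 2 * (r + 1) + 2 by omega, pow_add]
              omega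
            · refine pow_le_pow_of_le_one (by norm_num) (by norm_num) ?_
              refine le_trans ?_ (Nat.lt_two_pow_self).le
              omega
        _ = _ := by rw [sum_const, card_range, nsmul_eq_mul]
    have hJ : (J : ℝ) * lossUnit K ≤ K * lossUnit K :=
      mul_le_mul_of_nonneg_right (Nat.cast_le.2 (min_le_left _ _)) (by unfold lossUnit; positivity)
    have h2 : Ex p univ (fun _ => ∑ f ∈ Ω1, C.ν f) ≤
        Ex p univ (fun W => (∑ f ∈ Ω1.filter (keep W), C.ν f) +
          ∑ j ∈ range J, ∑ f ∈ Ω1.filter (fun f => cap K (r + 1) (K - 1 - j) <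
            (newPart Ω1 R W (K - 1 - j) f (curAt Ω1 R W K f j)).card), C.ν f) :=
      Ex_mono hp0 hp1 fun W _ => by linarith [hlost W]
    rw [Ex_const, Ex_add] at h2
    linarith

lemma loss_small (K : ℕ) : ((K + 2 : ℕ) : ℝ) * K * lossUnit K ≤ 1 / 4 := by
  have h : ((K + 2 : ℕ) : ℝ) * K ≤ 2 ^ (2 * K + 2) := by
    calc ((K + 2 : ℕ) : ℝ) * K ≤ 2 ^ (K + 2) * 2 ^ K :=
          mul_le_mul (by exact_mod_cast (Nat.lt_two_pow_self).le)
            (by exact_mod_cast (Nat.lt_two_pow_self).le) (Nat.cast_nonneg _) (by positivity)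
      _ = _ := by rw [← pow_add]; congr 1; omega
  calc ((K + 2 : ℕ) : ℝ) * K * lossUnit K ≤ 2 ^ (2 * K + 2) * lossUnit K :=
        mul_le_mul_of_nonneg_right h (by unfold lossUnit; positivity)
    _ = (1 / 2) ^ (5 * K + 13) := by
        rw [lossUnit, show 7 * K + 15 = (2 * K + 2) + (5 * K + 13) by omega, pow_add (1 / 2 : ℝ),
          ← mul_assoc, ← mul_pow]
        norm_num
    _ ≤ (1 / 2) ^ 2 := pow_le_pow_of_le_one (by norm_num) (by norm_num) (by omega)
    _ = _ := by norm_num

/-- After `K + 2` rounds all but a sixteenth of the coordinates are covered. -/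
theorem rounds_succeed (C : Chain Y q K fun a => 2 ^ (8 * (K + 2)) * 2 ^ a) (hq : 0 < q)
    (hp1 : 2 ^ 16 * q ≤ 1) (Φ : Finset Y → ℝ) (hΦ0 : ∀ G, 0 ≤ Φ G)
    (hΦ : ∀ g ∈ C.Ω, ∀ G S, supp g ⊆ G ∪ S → 16 * S.card ≤ 2 ^ (8 * (K + 2)) → 15 / 16 ≤ Φ G) :
    1 / 2 ≤ Ex (bias (2 ^ 16 * q) (K + 2)) univ Φ := by
  classical
  set p := 2 ^ 16 * q
  have hp0 : 0 ≤ p := by positivity
  have main : ∀ (s r : ℕ) (G : Finset Y) (Ω1 : Finset (Y → ℕ)) (R : (Y → ℕ) → Finset Y),
      r + s = K + 2 → St C r G Ω1 R →
      15 / 16 * ((∑ f ∈ Ω1, C.ν f) - s * (K * lossUnit K)) ≤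
        Ex (bias p s) univ fun U => Φ (G ∪ U) := by
    intro s
    induction s with
    | zero =>
      intro r G Ω1 R hr h
      have hE : Ex (bias p 0) univ (fun U => Φ (G ∪ U)) = Φ G := by
        rw [bias, pow_zero, sub_self, Ex, sum_eq_single ∅]
        · simp [wt]
        · intro U _ hU
          simp [wt, zero_pow (card_ne_zero.2 (nonempty_iff_ne_empty.2 hU))]
        · simp
      rw [hE, Nat.cast_zero, zero_mul, sub_zero]
      rcases Ω1.eq_empty_or_nonempty with rfl | ⟨f, hf⟩
      · simpa using hΦ0 G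
      obtain ⟨g, hg, hs⟩ := h.cover f hf
      have hsmall : 16 * (R f).card ≤ 2 ^ (8 * (K + 2)) := by
        rcases Nat.eq_zero_or_pos K with hK | hK
        · have : R f = ∅ := subset_empty.1 fun x hx => by
            have h1 := mem_supp.1 (h.rsub f hf hx)
            have h2 := C.le_top f (h.sub hf) x
            omega
          simp [this]
        · have h1 : (R f).card ≤ (out 0 f (R f)).card := card_le_card fun x hx =>
            mem_out.2 ⟨hx, Nat.pos_of_ne_zero (mem_supp.1 (h.rsub f hf hx))⟩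
          have h2 := h1.trans (h.caps f hf 0 hK (by omega))
          simp only [cap] at h2
          rw [show 8 * (K + 2) + 2 * K - 0 - 2 * r = 8 * (K + 2) - 4 by omega] at h2
          calc 16 * (R f).card ≤ 2 ^ 4 * 2 ^ (8 * (K + 2) - 4) := by omega
            _ = _ := by rw [← pow_add]; congr 1; omega
      have h1 : ∑ f ∈ Ω1, C.ν f ≤ 1 := C.total ▸
        sum_le_sum_of_subset_of_nonneg h.sub fun f hf _ => C.nonneg f hf
      linarith [hΦ g hg G _ hs hsmall]
    | succ s ih =>
      intro r G Ω1 R hr h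
      obtain ⟨Ω2, R2, hst, hmass⟩ := round C hq hp1 (by omega) h
      have hbias : 1 - (1 - p) * (1 - bias p s) = bias p (s + 1) := by
        simp only [bias]; rw [pow_succ]; ring
      rw [← hbias, ← Ex_union]
      calc 15 / 16 * ((∑ f ∈ Ω1, C.ν f) - ((s + 1 : ℕ) : ℝ) * (K * lossUnit K))
          ≤ Ex p univ (fun W => 15 / 16 * (∑ f ∈ Ω2 W, C.ν f)) -
              15 / 16 * (s * (K * lossUnit K)) := by
            rw [Ex_const_mul]
            push_cast
            linarith
        _ = Ex p univ (fun W => 15 / 16 * ((∑ f ∈ Ω2 W, C.ν f) - s * (K * lossUnit K))) := by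
            have e : ∀ W, 15 / 16 * ((∑ f ∈ Ω2 W, C.ν f) - s * (K * lossUnit K)) =
                15 / 16 * (∑ f ∈ Ω2 W, C.ν f) + -(15 / 16 * (s * (K * lossUnit K))) :=
              fun W => by ring
            rw [show (fun W => 15 / 16 * ((∑ f ∈ Ω2 W, C.ν f) - s * (K * lossUnit K))) = _ from
              funext e, Ex_add, Ex_const]
            ring
        _ ≤ _ := Ex_mono hp0 hp1 fun W _ => by
            simpa only [union_assoc] using ih (r + 1) (G ∪ W) (Ω2 W) (R2 W) (by omega) (hst W)
  have hst : St C 0 ∅ C.Ω supp := by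
    refine ⟨subset_rfl, fun _ _ => subset_rfl, fun f hf => ⟨f, hf, subset_union_right⟩,
      fun f hf d hd hd' => ?_⟩
    refine le_trans ((card_le_card fun x hx => ?_).trans (C.classBound f hf K (by omega))) ?_
    · have h1 := (mem_out.1 hx).2
      have h2 := C.le_top f hf x
      exact mem_filter.2 ⟨mem_univ _, by omega⟩
    · simp only [cap]
      rw [← pow_add]
      exact Nat.pow_le_pow_right two_pos (by omega)
  have h := main (K + 2) 0 ∅ C.Ω supp (by omega) hst
  simp only [empty_union, C.total] at h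
  have := loss_small K
  rw [mul_assoc] at this
  linarith

end Vale.Agent.P064.Second
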