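import Vale.Agent.P064.Glue
import Vale.Agent.P064.Second.Rounds

/-!
The second Kahn–Kalai conjecture: `p_c(n,H) ≤ C log n · p_E(n,H)`.
-/

open MeasureTheory unitInterval SimpleGraph Finset
open scoped BigOperators

namespace Vale.Agent.P064.Second

open Glue FKNP

section Abstract

variable {X : Type*} [DecidableEq X]

lemma Ex_inter (p : ℝ) : ∀ (s A : Finset X), A ⊆ s → ∀ h : Finset X → ℝ,
    Ex p s (fun W => h (W ∩ A)) = Ex p A h := by
  intro s
  induction s using Finset.induction_on with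
  | empty =>
    intro A hA h
    rw [Finset.subset_empty.1 hA]
    simp [Ex, wt]
  | @insert a s ha ih =>
    intro A hA h
    rw [Ex_insert p ha]
    by_cases haA : a ∈ A
    · obtain ⟨B, hB, rfl⟩ : ∃ B, a ∉ B ∧ A = insert a B :=
        ⟨A.erase a, notMem_erase a A, (insert_erase haA).symm⟩
      have hBs : B ⊆ s := by
        intro x hx
        exact (mem_insert.1 (hA (mem_insert_of_mem hx))).resolve_left fun e => hB (e ▸ hx)
      have h1 : ∀ W, insert a W ∩ insert a B = insert a (W ∩ B) := fun W => by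
        ext x; simp only [mem_inter, mem_insert]; tauto
      have h2 : ∀ W, W ⊆ s → W ∩ insert a B = W ∩ B := fun W hW =>
        inter_insert_of_notMem fun h' => ha (hW h')
      rw [Ex_insert p hB, Ex_congr (f := fun W => h (insert a W ∩ insert a B))
        (g := fun W => h (insert a (W ∩ B))) (fun W _ => by rw [h1]),
        Ex_congr (f := fun W => h (W ∩ insert a B)) (g := fun W => h (W ∩ B))
          (fun W hW => by rw [h2 W hW]), ih B hBs (fun U => h (insert a U)), ih B hBs h]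
    · have hAs : A ⊆ s := (subset_insert_iff_of_notMem haA).1 hA
      simp only [insert_inter_of_notMem haA]
      rw [ih A hAs h]
      ring

lemma Ex_map {Z : Type*} [DecidableEq Z] (p : ℝ) (e : X ↪ Z) : ∀ (s : Finset X)
    (h : Finset Z → ℝ), Ex p (s.map e) h = Ex p s fun W => h (W.map e) := by
  intro s
  induction s using Finset.induction_on with
  | empty => intro h; simp [Ex, wt]
  | @insert a s ha ih =>
    intro h
    rw [map_insert, Ex_insert p (by simpa using ha), Ex_insert p ha, ih, ih]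
    simp only [map_insert]

/-- A slice of a `p`-random subset of a product is `p`-random. -/
lemma Ex_slice [Fintype X] {m : ℕ} (p : ℝ) (i : Fin m) (h : Finset X → ℝ) :
    Ex p (univ : Finset (X × Fin m)) (fun G => h (univ.filter fun x => (x, i) ∈ G)) =
      Ex p univ h := by
  set e : X ↪ X × Fin m := ⟨fun x => (x, i), fun x y e => (Prod.ext_iff.1 e).1⟩ with he
  have h1 : ∀ G : Finset (X × Fin m), (univ.filter fun x => (x, i) ∈ G) =
      univ.filter fun x => e x ∈ G ∩ univ.map e := fun G => filter_congr fun x _ =>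
        ⟨fun h' => mem_inter.2 ⟨h', mem_map_of_mem e (mem_univ x)⟩, fun h' => (mem_inter.1 h').1⟩
  simp only [h1]
  rw [Ex_inter p univ (univ.map e) (subset_univ _)
    (fun G => h (univ.filter fun x => e x ∈ G)), Ex_map]
  refine Ex_congr fun W _ => ?_
  congr 1
  ext x
  simp

variable [Fintype X] {Γ : Type*} [Group Γ] [Fintype Γ] (π : Γ →* Equiv.Perm X)

/-- Orbits with no sparse subset have thresholds at most a logarithm above their density. -/
theorem orbit_threshold {c : ℝ} (hc : 0 < c) (H : Finset X)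
    (hH : ∀ J ⊆ H, 1 ≤ ((orb π J).card : ℝ) * c ^ J.card) {K : ℕ} (hK : H.card < 2 ^ K)
    (hp : 2 ^ 16 * (6 * c) ≤ 1) :
    1 / 2 ≤ Ex (bias (2 ^ 16 * (6 * c)) (K + 2)) univ
      fun W => if ∃ S ∈ orb π H, S ⊆ W then (1 : ℝ) else 0 := by
  classical
  obtain ⟨C, hC⟩ := exists_chain π hc K H hH hK
  set m := 2 ^ (8 * (K + 2)) with hm
  obtain ⟨P, hP⟩ := exists_power C m
  have hm0 : (0 : ℝ) < m := by positivity
  set f : Finset X → ℝ := fun W => if ∃ S ∈ orb π H, S ⊆ W then (1 : ℝ) else 0 with hf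
  set Φ : Finset (X × Fin m) → ℝ := fun G =>
    (∑ i : Fin m, f (univ.filter fun x => (x, i) ∈ G)) / m with hΦ
  have hf0 : ∀ W, 0 ≤ f W := fun W => by simp only [hf]; split_ifs <;> norm_num
  have h := rounds_succeed P (by positivity) hp Φ
    (fun G => div_nonneg (sum_nonneg fun i _ => hf0 _) hm0.le) ?_
  · refine h.trans_eq ?_
    simp only [hΦ, div_eq_mul_inv, mul_comm _ (m : ℝ)⁻¹, Ex_const_mul]
    rw [show Ex (bias (2 ^ 16 * (6 * c)) (K + 2)) univ
        (fun G => ∑ i : Fin m, f (univ.filter fun x => (x, i) ∈ G)) =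
        ∑ _i : Fin m, Ex (bias (2 ^ 16 * (6 * c)) (K + 2)) univ f by
      rw [← sum_congr rfl fun i _ => Ex_slice _ i f]
      simp only [Ex, mul_sum]
      exact sum_comm]
    rw [sum_const, card_univ, Fintype.card_fin, nsmul_eq_mul, ← mul_assoc,
      inv_mul_cancel₀ hm0.ne', one_mul]
  · intro g hg G S hsub hS
    simp only [hΦ]
    rw [le_div_iff₀ hm0]
    set bad := S.image Prod.snd
    have hb : 16 * bad.card ≤ m := (Nat.mul_le_mul_left 16 card_image_le).trans hS
    calc (15 / 16 : ℝ) * m ≤ ((univ \ bad).card : ℕ) := by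
          have h1 : (univ \ bad).card + bad.card = m := by
            rw [card_sdiff_add_card_eq_card (subset_univ bad), card_univ, Fintype.card_fin]
          have h2 : ((univ \ bad).card : ℝ) + bad.card = m := by exact_mod_cast h1
          have h3 : 16 * (bad.card : ℝ) ≤ m := by exact_mod_cast hb
          linarith
      _ = ∑ i ∈ univ \ bad, (1 : ℝ) := by simp
      _ ≤ ∑ i ∈ univ \ bad, f (univ.filter fun x => (x, i) ∈ G) := by
          refine sum_le_sum fun i hi => ?_
          simp only [hf]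
          rw [if_pos]
          refine ⟨supp (fun x => g (x, i)), hC _ (hP g hg i), fun x hx => ?_⟩
          refine mem_filter.2 ⟨mem_univ _, ?_⟩
          rcases mem_union.1 (hsub (mem_supp.2 ((mem_supp (f := fun x => g (x, i))).1 hx) :
              (x, i) ∈ supp g)) with h' | h'
          · exact h'
          · exact absurd (mem_image_of_mem Prod.snd h') (mem_sdiff.1 hi).2
      _ ≤ _ := sum_le_sum_of_subset_of_nonneg (subset_univ _) fun i _ _ => hf0 _

end Abstract

/-! ### Graphs -/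

/-- Permutations of the vertices, acting on the possible edges. -/
def slotPerm (n : ℕ) : Equiv.Perm (Fin n) →* Equiv.Perm (Slot n) where
  toFun g :=
    { toFun := fun e => ⟨Sym2.map g e.1, by rw [Sym2.isDiag_map g.injective]; exact e.2⟩
      invFun := fun e =>
        ⟨Sym2.map g.symm e.1, by rw [Sym2.isDiag_map g.symm.injective]; exact e.2⟩
      left_inv := fun e => Subtype.ext (by simp [Sym2.map_map])
      right_inv := fun e => Subtype.ext (by simp [Sym2.map_map]) }
  map_one' := by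
    ext e
    simp
  map_mul' g h := by
    ext e
    simp [Sym2.map_map]

lemma map_slotImage {W : Type*} {n : ℕ} (F : SimpleGraph W) (φ : W ↪ Fin n)
    (g : Equiv.Perm (Fin n)) :
    (slotImage F φ).map (slotPerm n g).toEmbedding = slotImage F (φ.trans g.toEmbedding) := by
  classical
  ext e
  rw [mem_map_equiv]
  simp only [slotImage, mem_filter, mem_univ, true_and, Set.mem_image]
  refine exists_congr fun z => and_congr_right fun _ => ?_
  show Sym2.map φ z = Sym2.map g.symm e.1 ↔ Sym2.map (φ.trans g.toEmbedding) z = e.1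
  rw [Function.Embedding.coe_trans, ← Sym2.map_map]
  constructor
  · intro h
    rw [h, Sym2.map_map]
    simp
  · intro h
    rw [← h, Sym2.map_map]
    simp

lemma adj_iff_slot {W : Type*} {n : ℕ} (F : SimpleGraph W) (φ : W ↪ Fin n) (a b : W) :
    F.Adj a b ↔ ∃ e ∈ slotImage F φ, e.1 = s(φ a, φ b) := by
  classical
  constructor
  · intro h
    refine ⟨⟨s(φ a, φ b), fun hd => h.ne (φ.injective (Sym2.mk_isDiag_iff.1 hd))⟩, ?_, rfl⟩
    exact mem_filter.2 ⟨mem_univ _, s(a, b), h, rfl⟩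
  · rintro ⟨e, he, hee⟩
    obtain ⟨z, hz, hze⟩ := (mem_filter.1 he).2
    rw [hee, ← Sym2.map_mk] at hze
    rwa [Sym2.map.injective φ.injective hze] at hz

/-- The embeddings with a given edge image are at most the automorphisms. -/
lemma descFactorial_le_images {W : Type*} [Fintype W] {n : ℕ} (F : SimpleGraph W)
    (hF : ∀ a, ∃ b, F.Adj a b) :
    n.descFactorial (Fintype.card W) ≤
      (univ.image fun φ : W ↪ Fin n => slotImage F φ).card * Nat.card (F ≃g F) := by
  classical
  rw [← Fintype.card_fin n, ← Fintype.card_embedding_eq, Fintype.card_fin, ← card_univ,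
    mul_comm]
  refine card_le_mul_card_image univ _ fun S hS => ?_
  obtain ⟨φ₀, -, rfl⟩ := mem_image.1 hS
  rw [← Fintype.card_subtype, ← Nat.card_eq_fintype_card]
  have : Finite (F ≃g F) := Finite.of_injective _ DFunLike.coe_injective
  have hsub : ∀ φ : {φ : W ↪ Fin n // slotImage F φ = slotImage F φ₀},
      ∀ a, ∃ b, φ₀ b = φ.1 a := by
    intro φ a
    obtain ⟨b, hb⟩ := hF a
    obtain ⟨e, he, hee⟩ := (adj_iff_slot F φ.1 a b).1 hb
    rw [φ.2] at he
    obtain ⟨z, -, hze⟩ := (mem_filter.1 he).2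
    have hm : φ.1 a ∈ Sym2.map φ₀ z := by rw [hze, hee]; exact Sym2.mem_mk_left _ _
    obtain ⟨x, -, hx⟩ := Sym2.mem_map.1 hm
    exact ⟨x, hx⟩
  choose τ hτ using hsub
  have hτi : ∀ φ, Function.Injective (τ φ) := fun φ a b h =>
    φ.1.injective (by rw [← hτ φ a, ← hτ φ b, h])
  refine Nat.card_le_card_of_injective (fun φ =>
    ({ toEquiv := Equiv.ofBijective (τ φ) (Finite.injective_iff_bijective.1 (hτi φ))
       map_rel_iff' := fun {a b} => by
        show F.Adj (τ φ a) (τ φ b) ↔ F.Adj a b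
        rw [adj_iff_slot F φ₀, adj_iff_slot F φ.1 a b, hτ, hτ, φ.2] } : F ≃g F)) ?_
  intro φ φ' h
  refine Subtype.ext (Function.Embedding.ext fun a => ?_)
  rw [← hτ φ a, ← hτ φ' a]
  exact congrArg φ₀ (DFunLike.congr_fun h a :)

lemma orbit_hyp {n v : ℕ} (H : SimpleGraph (Fin v)) (φ : Fin v ↪ Fin n) {q : I}
    (hq : ∀ F : H.Subgraph, 1 / 2 ≤ expCopies n F.coe q) :
    ∀ J ⊆ slotImage H φ, 1 ≤ ((orb (slotPerm n) J).card : ℝ) * (2 * (q : ℝ)) ^ J.card := by
  classical
  intro J hJ
  have horb : (1 : ℝ) ≤ (orb (slotPerm n) J).card := by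
    exact_mod_cast card_pos.2 ⟨J, self_mem_orb _ J⟩
  rcases Nat.eq_zero_or_pos J.card with h0 | h0
  · simpa [h0] using horb
  let F : H.Subgraph :=
    { verts := {a | ∃ b, ∃ e ∈ J, e.1 = s(φ a, φ b)}
      Adj := fun a b => ∃ e ∈ J, e.1 = s(φ a, φ b)
      adj_sub := fun {a b} h => by
        obtain ⟨e, he, hee⟩ := h
        exact (adj_iff_slot H φ a b).2 ⟨e, hJ he, hee⟩
      edge_vert := fun {a b} h => ⟨b, h⟩
      symm := ⟨fun a b h => by
        obtain ⟨e, he, hee⟩ := h
        exact ⟨e, he, by rw [hee, Sym2.eq_swap]⟩⟩ }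
  set ψ : F.verts ↪ Fin n := (Function.Embedding.subtype _).trans φ
  have hF : ∀ a, ∃ b, F.coe.Adj a b := by
    rintro ⟨a, b, e, he, hee⟩
    exact ⟨⟨b, a, e, he, by rw [hee, Sym2.eq_swap]⟩, e, he, hee⟩
  have himg : slotImage F.coe ψ = J := by
    ext e
    constructor
    · intro he
      obtain ⟨z, hz, hze⟩ := (mem_filter.1 he).2
      induction z using Sym2.ind with
      | _ a b =>
        obtain ⟨e', he', hee⟩ := hz
        rwa [show e = e' from Subtype.ext (hze.symm.trans hee.symm)]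
    · intro he
      obtain ⟨z, -, hze⟩ := (mem_filter.1 (hJ he)).2
      induction z using Sym2.ind with
      | _ a b =>
        rw [Sym2.map_mk] at hze
        have hba : e.1 = s(φ b, φ a) := by rw [← hze, Sym2.eq_swap]
        exact mem_filter.2 ⟨mem_univ _,
          s(⟨a, b, e, he, hze.symm⟩, ⟨b, a, e, he, hba⟩), ⟨e, he, hze.symm⟩, hze⟩
  have hec : ecard F.coe = J.card := by rw [← card_slotImage F.coe ψ, himg]
  have hsub : (univ.image fun χ : F.verts ↪ Fin n => slotImage F.coe χ) ⊆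
      orb (slotPerm n) J := by
    intro S hS
    obtain ⟨χ, -, rfl⟩ := mem_image.1 hS
    obtain ⟨g, hg⟩ := Equiv.Perm.exists_extending_pair ψ χ ψ.injective χ.injective
    refine (mem_orb _).2 ⟨g, ?_⟩
    rw [← himg, map_slotImage]
    congr 1
    exact Function.Embedding.ext fun a => hg a
  have h1 : (n.descFactorial (Fintype.card F.verts) : ℝ) ≤
      (orb (slotPerm n) J).card * Nat.card (F.coe ≃g F.coe) := by
    exact_mod_cast (descFactorial_le_images F.coe hF).trans
      (Nat.mul_le_mul_right _ (card_le_card hsub))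
  have h2 := aut_mul_expCopies n F.coe q
  have ha : (0 : ℝ) < Nat.card (F.coe ≃g F.coe) := Nat.cast_pos.2 (card_aut_pos F.coe)
  have hq0 : (0 : ℝ) ≤ q := q.2.1
  rw [hec] at h2
  have h3 : expCopies n F.coe q ≤ (orb (slotPerm n) J).card * (q : ℝ) ^ J.card := by
    refine le_of_mul_le_mul_left ?_ ha
    rw [h2]
    calc (n.descFactorial (Fintype.card F.verts) : ℝ) * (q : ℝ) ^ J.card
        ≤ (orb (slotPerm n) J).card * Nat.card (F.coe ≃g F.coe) * (q : ℝ) ^ J.card :=
          mul_le_mul_of_nonneg_right h1 (pow_nonneg hq0 _)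
      _ = _ := by ring
  have h4 : (2 : ℝ) ≤ 2 ^ J.card := le_self_pow₀ one_le_two (by omega)
  have h5 : 0 ≤ ((orb (slotPerm n) J).card : ℝ) * (q : ℝ) ^ J.card := by positivity
  have h6 := hq F
  rw [mul_pow]
  nlinarith [mul_le_mul_of_nonneg_left h4 h5]

lemma pC_le_one {n v : ℕ} (hv : v ≤ n) (H : SimpleGraph (Fin v)) : pC n H ≤ 1 := by
  refine csInf_le ⟨0, fun x hx => hx.1.1⟩ ⟨unitInterval.one_mem, ?_⟩
  obtain ⟨φ⟩ : Nonempty (Fin v ↪ Fin n) :=
    Function.Embedding.nonempty_of_card_le (by simpa using hv)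
  have hmem : (⊤ : SimpleGraph (Fin n)) ∈ {G : SimpleGraph (Fin n) | H ⊑ G} :=
    ⟨⟨⟨φ, fun {a b} hab => φ.injective.ne hab.ne⟩, φ.injective⟩⟩
  have he : ∀ h : (1 : ℝ) ∈ I, (⟨1, h⟩ : I) = 1 := fun _ => rfl
  rw [he, probContains, binomialRandom_one,
    Measure.real, Measure.dirac_apply_of_mem hmem]
  norm_num

/-- The threshold is at most `(K + 2) · 2 ^ 20` times any admissible density. -/
lemma pC_le_of_admissible {n v : ℕ} (hv : v ≤ n) (H : SimpleGraph (Fin v)) {q : I}
    (hq0 : 0 < (q : ℝ)) (hq : ∀ F : H.Subgraph, 1 / 2 ≤ expCopies n F.coe q) :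
    pC n H ≤ ((Nat.log 2 (ecard H) + 3 : ℕ) : ℝ) * (2 ^ 16 * (6 * (2 * (q : ℝ)))) := by
  classical
  set p := 2 ^ 16 * (6 * (2 * (q : ℝ))) with hpdef
  have hp0 : 0 < p := by positivity
  set K := Nat.log 2 (ecard H) + 1
  rw [show Nat.log 2 (ecard H) + 3 = K + 2 by omega]
  have hK2 : (1 : ℝ) ≤ ((K + 2 : ℕ) : ℝ) := by exact_mod_cast Nat.succ_le_succ (Nat.zero_le _)
  rcases lt_or_ge 1 p with hp | hp
  · exact (pC_le_one hv H).trans (hp.le.trans (le_mul_of_one_le_left hp0.le hK2))
  obtain ⟨φ⟩ : Nonempty (Fin v ↪ Fin n) :=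
    Function.Embedding.nonempty_of_card_le (by simpa using hv)
  have h := orbit_threshold (slotPerm n) (c := 2 * (q : ℝ)) (by positivity) (slotImage H φ)
    (orbit_hyp H φ hq) (K := K)
    ((card_slotImage H φ).trans_lt (Nat.lt_pow_succ_log_self (by norm_num) _)) hp
  set b := bias p (K + 2)
  have hb : b ∈ I := by
    refine ⟨?_, ?_⟩ <;> simp only [b, bias]
    · exact sub_nonneg.2 (pow_le_one₀ (by linarith) (by linarith))
    · exact sub_le_self 1 (pow_nonneg (by linarith) _)
  have hbp : b ≤ ((K + 2 : ℕ) : ℝ) * p := by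
    have := one_add_mul_le_pow (a := -p) (by linarith) (K + 2)
    simp only [b, bias, ← sub_eq_add_neg] at this ⊢
    linarith
  refine le_trans (b := b) ?_ hbp
  refine csInf_le ⟨0, fun x hx => hx.1.1⟩ ⟨hb, ?_⟩
  refine h.trans ?_
  rw [probContains_eq, Finset.sum_filter]
  simp only [Ex, powerset_univ]
  refine sum_le_sum fun S _ => ?_
  have hw : 0 ≤ wt b (univ : Finset (Slot n)) S := wt_nonneg hb.1 hb.2 _ _
  show wt b univ S * _ ≤ if _ then wt b univ S else 0
  by_cases hS : ∃ T ∈ orb (slotPerm n) (slotImage H φ), T ⊆ S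
  · obtain ⟨T, hT, hTS⟩ := hS
    rw [if_pos ⟨T, hT, hTS⟩]
    obtain ⟨g, rfl⟩ := (mem_orb _).1 hT
    rw [map_slotImage] at hTS
    rw [if_pos ⟨_, hTS⟩, mul_one]
  · rw [if_neg hS, mul_zero]
    split_ifs
    · exact hw
    · exact le_rfl

/-- The second Kahn–Kalai conjecture. -/
theorem second_kahn_kalai :
    ∃ C : ℝ, ∀ (n v : ℕ) (H : SimpleGraph (Fin v)), 2 ≤ n → v ≤ n → H ≠ ⊥ →
      pC n H ≤ C * Real.log n * pE n H := by
  refine ⟨15 * (2 ^ 16 * 12), fun n v H hn hv hH => ?_⟩
  have hlog : 0 < Real.log n := Real.log_pos (by exact_mod_cast hn)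
  obtain ⟨δ, hδ, hδA⟩ := pE_lower hv hH
  have hc : 0 < 15 * (2 ^ 16 * 12) * Real.log n := by positivity
  rw [← div_le_iff₀' hc]
  refine le_csInf ⟨1, pE_set_nonempty hv H⟩ fun x hx => ?_
  have hx0 : 0 < x := hδ.trans_le (hδA x hx)
  obtain ⟨hxI, hF⟩ := hx
  rw [div_le_iff₀' hc]
  refine (pC_le_of_admissible (q := ⟨x, hxI⟩) hv H hx0 hF).trans ?_
  have hl := natLog_bound hn hv H
  have h0 : (0 : ℝ) ≤ Nat.log 2 (ecard H) := Nat.cast_nonneg _
  push_cast
  calc ((Nat.log 2 (ecard H) : ℝ) + 3) * (2 ^ 16 * (6 * (2 * x)))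
      ≤ (15 * Real.log n) * (2 ^ 16 * (6 * (2 * x))) :=
        mul_le_mul_of_nonneg_right (by linarith) (by positivity)
    _ = _ := by ring

end Vale.Agent.P064.Second
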